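import Crest.Agent.N346.Basic

/-! Row 346: basic API, part 2 (helper14): `eta`, `flux`, monotonicity of `BV`. -/

set_option autoImplicit false
open MeasureTheory Filter Topology
open scoped ContDiff
open Crest.GeometryTopology.CoordMetric
open Crest.MathPhysics.ExteriorData

noncomputable section

namespace Crest.Agent.N346.Bs

variable {n : ℕ} {R : ℝ} {x : E n} {g g' : MetricField n}

/-! ### the cut-off -/

theorem contDiff_eta (R : ℝ) : ContDiff ℝ ∞ (eta R : E n → ℝ) :=
  Real.smoothTransition.contDiff.comp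
    ((contDiff_const.sub ((contDiff_norm_sq ℝ).div_const _)).div_const _)

theorem eta_nonneg (R : ℝ) (x : E n) : 0 ≤ eta R x := Real.smoothTransition.nonneg _

theorem eta_le_one (R : ℝ) (x : E n) : eta R x ≤ 1 := Real.smoothTransition.le_one _

theorem eta_eq_one (hR : 0 < R) (hx : ‖x‖ ≤ R) : eta R x = 1 := by
  refine Real.smoothTransition.one_of_one_le ?_
  have : ‖x‖ ^ 2 / R ^ 2 ≤ 1 := (div_le_one (by positivity)).2 (by gcongr)
  linarith

theorem eta_eq_zero (hR : 0 < R) (hx : 2 * R ≤ ‖x‖) : eta R x = 0 := by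
  refine Real.smoothTransition.zero_of_nonpos ?_
  have : 4 ≤ ‖x‖ ^ 2 / R ^ 2 := by rw [le_div_iff₀ (by positivity)]; nlinarith
  linarith

theorem hasCompactSupport_eta (hR : 0 < R) : HasCompactSupport (eta R : E n → ℝ) :=
  hasCompactSupport_of_far (R := 2 * R) fun _ hy => eta_eq_zero hR hy.le

theorem eta_scale (R : ℝ) (x : E n) : eta R x = eta 1 (R⁻¹ • x) := by
  simp [eta, norm_smul, mul_pow, div_eq_inv_mul]


theorem fderiv_eta_of_le (hR : 0 < R) (hx : ‖x‖ ≤ R) : fderiv ℝ (eta R) x = 0 :=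
  IsLocalMax.fderiv_eq_zero (.of_forall fun y => (eta_le_one R y).trans (eta_eq_one hR hx).ge)

theorem fderiv_eta_of_ge (hR : 0 < R) (hx : 2 * R ≤ ‖x‖) : fderiv ℝ (eta R) x = 0 :=
  IsLocalMin.fderiv_eq_zero (.of_forall fun y => (eta_eq_zero hR hx).le.trans (eta_nonneg R y))

theorem pd_eta_of_le (hR : 0 < R) (hx : ‖x‖ ≤ R) (i : Fin n) : pderiv i (eta R) x = 0 := by
  simp [pderiv, fderiv_eta_of_le hR hx]

theorem pd_eta_of_ge (hR : 0 < R) (hx : 2 * R ≤ ‖x‖) (i : Fin n) : pderiv i (eta R) x = 0 := by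
  simp [pderiv, fderiv_eta_of_ge hR hx]

theorem pd_eta (R : ℝ) (i : Fin n) (x : E n) : pderiv i (eta R) x =
    -(2 / (3 * R ^ 2) * deriv Real.smoothTransition ((4 - ‖x‖ ^ 2 / R ^ 2) / 3)) * x i := by
  have h := pd_comp (u := fun y : E n => (4 - ‖y‖ ^ 2 / R ^ 2) / 3) (x := x)
    ((Real.smoothTransition.contDiff (n := 1)).differentiable one_ne_zero _).hasDerivAt
    (smooth_diff ((contDiff_const.sub ((contDiff_norm_sq ℝ).div_const _)).div_const _) x) i
  rw [pd_div_const, pd_const_sub, pd_div_const, pd_normSq] at h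
  exact h.trans (by ring)

/-- all derivatives of `η_R` scale -/
theorem exists_eta_bound (n k : ℕ) : ∃ C : ℝ, 0 ≤ C ∧ ∀ R : ℝ, 0 < R → ∀ x : E n,
    ‖iteratedFDeriv ℝ k (eta R) x‖ ≤ C / R ^ k := by
  obtain ⟨C, hC⟩ := ((contDiff_eta (n := n) 1).continuous_iteratedFDeriv
    (m := k) (by exact_mod_cast le_top)).bounded_above_of_compact_support
    ((hasCompactSupport_eta one_pos).iteratedFDeriv k)
  refine ⟨C, (norm_nonneg _).trans (hC 0), fun R hR x => ?_⟩
  have h1 : (eta R : E n → ℝ) = eta 1 ∘ (R⁻¹ • ContinuousLinearMap.id ℝ (E n)) :=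
    funext fun y => eta_scale R y
  rw [h1, ContinuousLinearMap.iteratedFDeriv_comp_right _ (contDiff_eta 1) _
    (by exact_mod_cast le_top)]
  refine (ContinuousMultilinearMap.norm_compContinuousLinearMap_le _ _).trans ?_
  rw [div_eq_mul_inv, ← inv_pow, Finset.prod_const, Finset.card_univ, Fintype.card_fin]
  gcongr
  · exact (norm_nonneg _).trans (hC 0)
  · exact hC _
  · rw [norm_smul, Real.norm_of_nonneg (by positivity)]
    exact mul_le_of_le_one_right (by positivity) ContinuousLinearMap.norm_id_le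

theorem exists_eta_grad (n : ℕ) : ∃ C : ℝ, 0 ≤ C ∧ ∀ R : ℝ, 0 < R → ∀ x : E n,
    ‖fderiv ℝ (eta R) x‖ ≤ C / R := by
  simpa using exists_eta_bound n 1

/-- `|∇η_R| ≤ C / (1 + |x|)` uniformly in `R ≥ 1` -/
theorem exists_eta_grad' (n : ℕ) : ∃ C : ℝ, 0 ≤ C ∧ ∀ R : ℝ, 1 ≤ R → ∀ x : E n,
    ‖fderiv ℝ (eta R) x‖ ≤ C / (1 + ‖x‖) := by
  obtain ⟨C, hC, h⟩ := exists_eta_grad n
  refine ⟨3 * C, by positivity, fun R hR x => ?_⟩
  rcases le_total (2 * R) ‖x‖ with h1 | h1
  · rw [fderiv_eta_of_ge (by linarith) h1, norm_zero]; positivity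
  · refine (h R (by linarith) x).trans ?_
    rw [div_le_div_iff₀ (by linarith) (by positivity)]
    nlinarith

theorem eventually_eta (x : E n) : ∀ᶠ R in atTop, eta R x = 1 ∧ fderiv ℝ (eta R) x = 0 := by
  filter_upwards [eventually_gt_atTop 0, eventually_ge_atTop ‖x‖] with R h1 h2
  exact ⟨eta_eq_one h1 h2, fderiv_eta_of_le h1 h2⟩

theorem tendsto_integral_eta {f : E n → ℝ} (hf : Integrable f) :
    Tendsto (fun R => ∫ x, eta R x * f x) atTop (𝓝 (∫ x, f x)) := by
  refine tendsto_integral_filter_of_dominated_convergence (fun x => ‖f x‖)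
    (.of_forall fun R => (contDiff_eta R).continuous.aestronglyMeasurable.mul hf.1)
    (.of_forall fun R => .of_forall fun x => ?_) hf.norm (.of_forall fun x => ?_)
  · rw [norm_mul, Real.norm_of_nonneg (eta_nonneg R x)]
    exact mul_le_of_le_one_left (norm_nonneg _) (eta_le_one R x)
  · exact tendsto_const_nhds.congr' ((eventually_eta x).mono fun R h => by simp [h.1])

/-- boundary terms vanish at infinity when `|f| / (1 + |x|)` is integrable -/
theorem tendsto_integral_pd_eta {f : E n → ℝ} (hm : AEStronglyMeasurable f)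
    (hf : Integrable fun x => f x / (1 + ‖x‖)) (i : Fin n) :
    Tendsto (fun R => ∫ x, pderiv i (eta R) x * f x) atTop (𝓝 0) := by
  obtain ⟨C, hC, h⟩ := exists_eta_grad' n
  rw [← integral_zero (E n) ℝ (μ := volume)]
  refine tendsto_integral_filter_of_dominated_convergence (fun x => C * ‖f x / (1 + ‖x‖)‖)
    (.of_forall fun R => (contDiff_pd (contDiff_eta R) i).continuous.aestronglyMeasurable.mul hm)
    ((eventually_ge_atTop 1).mono fun R hR => .of_forall fun x => ?_) (hf.norm.const_mul C)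
    (.of_forall fun x => ?_)
  · rw [norm_mul, norm_div, Real.norm_of_nonneg (by positivity : 0 ≤ 1 + ‖x‖), mul_div_left_comm,
      mul_comm]
    exact mul_le_mul_of_nonneg_left ((abs_pd_le i _ x).trans (h R hR x)) (norm_nonneg _)
  · exact tendsto_const_nhds.congr' ((eventually_eta x).mono fun R h => by simp [pderiv, h.2])

theorem integral_eta_divE {V : VectorField n} (hR : 0 < R) (hV : ∀ i, ContDiff ℝ 1 fun x => V x i) :
    ∫ x, eta R x * divE V x = -∫ x, ∑ i, pderiv i (eta R) x * V x i :=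
  ibp_divE (smooth_one (contDiff_eta R)) (hasCompactSupport_eta hR) hV



/-! ### the flux -/

theorem flux_eq {U : E n → ℝ} (hU : ContDiff ℝ 2 U) (hR : 0 < R) :
    flux U R = -∫ x, eta R x * lap U x := by
  rw [lap_eq_divE, integral_eta_divE hR fun i => contDiff_pd' hU (by norm_num) i, neg_neg, flux]
  simp only [mul_comm]

theorem tendsto_flux {U : E n → ℝ} (hU : ContDiff ℝ 2 U) (h : Integrable (lap U)) :
    Tendsto (flux U) atTop (𝓝 (-∫ x, lap U x)) :=
  (tendsto_integral_eta h).neg.congr' ((eventually_gt_atTop 0).mono fun _ hR => (flux_eq hU hR).symm)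


theorem _root_.Crest.Agent.N346.FluxLE.mono {U : E n → ℝ} {a b : ℝ} (h : FluxLE U a) (hab : a ≤ b) : FluxLE U b :=
  fun ε hε => (h ε hε).imp fun _ h R hR => (h R hR).trans (by linarith)


/-! ### total variation bounds -/

theorem integrable_tv (hg : IsRiemannianOn g Set.univ) {F : E n → ℝ} (hF : ContDiff ℝ 1 F) {c : ℝ}
    (h : ∀ x, R ≤ ‖x‖ → F x = c) : Integrable fun x => √(gradSq g F x) * volDensity g x :=
  ((continuous_gradDot hg hF hF).sqrt.mul
    (contDiff_volDensity hg).continuous).integrable_of_hasCompactSupport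
    (hasCompactSupport_of_far (R := R) fun y hy => by
      simp [gradSq, gradDot_of_zero (pd_of_far h hy)])

theorem tv_mono (hg : (g x).PosDef) (hg' : (g' x).PosDef) {k : ℝ} (hk : 0 ≤ k)
    (h : ∀ v, k * quadForm g x v ≤ quadForm g' x v) (F : E n → ℝ) :
    √(k ^ (n - 1)) * (√(gradSq g F x) * volDensity g x) ≤ √(gradSq g' F x) * volDensity g' x := by
  have := (mono_of_le hg hg' hk fun v => h (WithLp.toLp 2 v)).2.2 fun i => pderiv i F x
  rw [volDensity, volDensity, mul_comm (√(gradSq g F x)), mul_comm (√(gradSq g' F x)),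
    ← Real.sqrt_mul hg.det_pos.le, ← Real.sqrt_mul hg'.det_pos.le, ← Real.sqrt_mul (by positivity)]
  exact Real.sqrt_le_sqrt this

theorem _root_.Crest.Agent.N346.BV.mono_set {Z Z' : Set (E n)} {A : ℝ} (h : BV g Z A) (hZ : Z ⊆ Z') : BV g Z' A :=
  fun F hF h0 h1 => h F hF (fun x hx => h0 x (hZ hx)) h1

theorem _root_.Crest.Agent.N346.BV.mono_area {Z : Set (E n)} {A A' : ℝ} (h : BV g Z A) (hA : A' ≤ A) : BV g Z A' :=
  fun F hF h0 h1 => hA.trans (h F hF h0 h1)

/-- `k g ≤ g'` off the interior of `Z` -/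
theorem _root_.Crest.Agent.N346.BV.mono_metric (hg : IsRiemannianOn g Set.univ) (hg' : IsRiemannianOn g' Set.univ)
    {Z : Set (E n)} {A k : ℝ} (h : BV g Z A) (hk : 0 ≤ k)
    (hle : ∀ x ∉ interior Z, ∀ v, k * quadForm g x v ≤ quadForm g' x v) :
    BV g' Z (√(k ^ (n - 1)) * A) := by
  intro F hF h0 h1
  refine (mul_le_mul_of_nonneg_left (h F hF h0 h1) (Real.sqrt_nonneg _)).trans ?_
  obtain ⟨R, h1⟩ := h1
  rw [← integral_const_mul]
  refine integral_mono ((integrable_tv hg (smooth_one hF) h1).const_mul _)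
    (integrable_tv hg' (smooth_one hF) h1) fun x => ?_
  by_cases hx : x ∈ interior Z
  · have := pd_of_eventually_const (u := F) (c := 0)
      (mem_of_superset (mem_interior_iff_mem_nhds.1 hx) h0)
    simp [gradSq, gradDot_of_zero this]
  · exact tv_mono (riem_posDef hg x) (riem_posDef hg' x) hk (hle x hx) F

theorem _root_.Crest.Agent.N346.BV.mono_metric_rpow (hn : 1 ≤ n) (hg : IsRiemannianOn g Set.univ)
    (hg' : IsRiemannianOn g' Set.univ) {Z : Set (E n)} {A k : ℝ} (h : BV g Z A) (hk : 0 ≤ k)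
    (hle : ∀ x ∉ interior Z, ∀ v, k * quadForm g x v ≤ quadForm g' x v) :
    BV g' Z (k ^ (((n : ℝ) - 1) / 2) * A) := by
  convert h.mono_metric hg hg' hk hle using 2
  rw [Real.sqrt_eq_rpow, ← Real.rpow_natCast, ← Real.rpow_mul hk, Nat.cast_sub hn]
  congr 1; push_cast; ring

theorem _root_.Crest.Agent.N346.BV.mono_le (hg : IsRiemannianOn g Set.univ) (hg' : IsRiemannianOn g' Set.univ)
    {Z : Set (E n)} {A : ℝ} (h : BV g Z A)
    (hle : ∀ x ∉ interior Z, ∀ v, quadForm g x v ≤ quadForm g' x v) : BV g' Z A := by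
  simpa using h.mono_metric hg hg' zero_le_one (by simpa using hle)

theorem unitSphereArea_pos (hn : 1 ≤ n) : 0 < unitSphereArea n := by
  have : (0 : ℝ) < n := by exact_mod_cast hn
  have := Real.Gamma_pos_of_pos (half_pos this)
  have := Real.pi_pos
  unfold unitSphereArea; positivity

end Crest.Agent.N346.Bs

end
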