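import Crest.Agent.N346.Bd.WDefs
import Crest.Agent.N346.Bd.W3
import Crest.Agent.N346.Bd.S12_Mg
import Crest.Agent.N346.Bd.Top_Mg
import Crest.Agent.N346.Bd.S3
import Crest.Agent.N346.Bd.S7c_Mg
import Crest.Agent.N346.Bd.S7b
import Crest.Agent.N346.P1.Unif
import Crest.Agent.N346.Final
import Crest.Agent.N346.Br.Cont_Mg
import Crest.Agent.N346.P1.Out_Mg
import Crest.Agent.N346.P0.Norm_Mg
import Crest.Agent.N346.P1.Setup_Mg
import Crest.Agent.N346.An.Main

-- ▼ part N346/Bd/S8A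
section

/-! Row 346, S8 (helper73): the De Giorgi lemma applied to a power of `W`. -/

set_option autoImplicit false

open MeasureTheory Filter Set
open scoped ContDiff Topology
open Crest.GeometryTopology.CoordMetric Crest.MathPhysics.ExteriorData
open Crest.Agent.R202.Tens Crest.Agent.R247.Bo84 Crest.Agent.N346.Id Crest.Agent.N346.P1

noncomputable section

namespace Crest.Agent.N346.Bd.S8

variable {n : ℕ} {g : MetricField n} {φ f W σ : E n → ℝ}

/-- the conclusion of `DGStmt` for one exponent -/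
def DG (n N : ℕ) : Prop := ∀ P : ℝ, 2 ≤ P →
  ∀ (ψ γ : E n → ℝ) (V : E n → E n), ContDiff ℝ 1 ψ → ContDiff ℝ 1 V → Continuous γ →
  (∀ x, ψ x ≤ 1) → (∃ x, ψ x = 1) → Bornology.IsBounded {x | 1 / 4 ≤ ψ x} →
  (∀ x, 1 / 4 < ψ x → 0 ≤ γ x ∧ ‖fderiv ℝ ψ x‖ ^ 2 ≤ P * γ x * fderiv ℝ ψ x (V x) ∧
    γ x / P - P ≤ divE (fun y i => V y i) x) →
  (P ^ N)⁻¹ ≤ volume.real {x | 1 / 4 < ψ x}

theorem divE_vol {G : MetricField n} (hG : IsRiemannianOn G univ) (V : E n → E n) (x : E n) :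
    divE (fun y i => (volDensity G y • V y) i) x = volDensity G x * divg G V x := by
  have := Real.sqrt_pos.2 (det_pos hG (mem_univ x))
  simp only [divE, divg, volDensity, PiLp.smul_apply, smul_eq_mul]
  field_simp

theorem gm_le (hd : Jd g φ f univ) (x : E n) : gm g φ f x ≤ 1 + gm g φ f x * pp g φ f x := by
  have h1 := hd.gm_sq_mul (mem_univ x)
  have h2 := hd.one_le_gm (mem_univ x)
  have h3 := hd.pp_lt_one (mem_univ x)
  nlinarith [mul_nonneg (sub_nonneg.2 h2) (mul_nonneg (zero_le_one.trans h2) (sub_nonneg.2 h3.le))]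

theorem hasFDerivAt_pow (hW : ContDiff ℝ ∞ W) {x : E n} (h0 : 0 < W x) (S : ℝ) (L : ℕ) :
    HasFDerivAt (fun y => (W y / S) ^ L) ((L * (W x / S) ^ L / W x) • fderiv ℝ W x) x := by
  have h := ((hW.differentiable (by simp) x).hasFDerivAt.mul_const S⁻¹).pow L
  simp only [← div_eq_mul_inv] at h
  refine h.congr_fderiv ?_
  rw [smul_smul]
  congr 1
  rcases L with _ | L
  · simp
  · simp only [Nat.add_sub_cancel, nsmul_eq_mul, pow_succ]
    field_simp

/-- arithmetic of the divergence bound -/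
theorem arith {γ q τ C m X Λ D : ℝ} (hγ : 1 ≤ γ) (hq : γ ≤ 1 + q) (hτ : 0 < τ) (hτ1 : τ ≤ 1)
    (hC : 0 ≤ C) (hX : 0 < X) (hm : X⁻¹ ≤ m) (hm' : m ≤ Λ) (hD : τ * q - C ≤ D) :
    γ / X - Λ * ((C + 2) ^ 2 / τ) ≤ γ * m * D := by
  have hm0 : 0 < m := (inv_pos.2 hX).trans_le hm
  have h1 : γ - (C + 2) ^ 2 / τ ≤ γ * D := by
    have e : (C + 2) ^ 2 / τ = τ * ((C + 2) / τ) ^ 2 := by field_simp
    have e2 : C + 2 = τ * ((C + 2) / τ) := by field_simp
    have h2 : γ * (τ * (γ - 1) - C) ≤ γ * D :=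
      mul_le_mul_of_nonneg_left (by nlinarith) (by linarith)
    set u := (C + 2) / τ
    have hu : 0 ≤ u := by positivity
    have h3 : (τ + C + 1) * γ ≤ τ * u * γ := mul_le_mul_of_nonneg_right (by linarith) (by linarith)
    rw [e]
    nlinarith [mul_nonneg hτ.le (sq_nonneg (γ - u)), mul_nonneg hτ.le (mul_nonneg hu (zero_le_one.trans hγ))]
  have h2 := mul_le_mul_of_nonneg_left h1 hm0.le
  have h3 : γ / X ≤ m * γ := by
    rw [div_eq_inv_mul]; exact mul_le_mul_of_nonneg_right hm (by linarith)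
  have h4 := mul_le_mul_of_nonneg_right hm' (show 0 ≤ (C + 2) ^ 2 / τ by positivity)
  linarith

theorem dg_apply {N N' : ℕ} (hDG : DG n N') (hd : Jd g φ f univ) {X : ℝ} (hX : 4 ≤ X)
    (g_hi : ∀ x Y, bil (g x) Y Y ≤ X * ‖Y‖ ^ 2) (vol_lo : ∀ x, X⁻¹ ≤ volDensity g x)
    (vol_hi : ∀ x, volDensity g x ≤ X) (hW : ContDiff ℝ ∞ W) (hσ : ContDiff ℝ ∞ σ)
    (hW0 : ∀ x, 0 < W x) (hs : ∀ x, X⁻¹ ^ 4 / 2 ≤ σ x * W x ∧ σ x * W x ≤ X ^ 4 / 2)
    (hdiv : ∀ x, X⁻¹ ^ 3 * gm g φ f x * pp g φ f x - 2 * X ^ 2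
      - X ^ N * (1 + σ x ^ 2 * gam (gb g φ f) W W x)
      ≤ divg (gb g φ f) (fun y => σ y • grad (gb g φ f) W y) x)
    {x0 : E n} (hS : ∀ x, W x ≤ W x0) {ρ : ℝ} (hfar : ∀ x, ρ ≤ ‖x‖ → W x ≤ W x0 / 4) :
    ((X ^ (3 * N + 15)) ^ N')⁻¹ ≤ volume.real {x | W x0 / 4 < W x} := by
  have hX1 : 1 ≤ X := by linarith
  have hX0 : 0 < X := by linarith
  have hp : ∀ {a b : ℕ}, a ≤ b → X ^ a ≤ X ^ b := fun h => pow_le_pow_right₀ hX1 h
  have hp4 : ∀ a : ℕ, 4 * X ^ a ≤ X ^ (a + 1) := fun a => by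
    rw [pow_succ']; exact mul_le_mul_of_nonneg_right hX (by positivity)
  set S := W x0 with hSd
  have hS0 : 0 < S := hW0 x0
  set L := ⌈X ^ (N + 4)⌉₊ with hL
  have hL1 : X ^ (N + 4) ≤ L := Nat.le_ceil _
  have hL4 : (4 : ℝ) ≤ L := by linarith [hp4 0, hp (show 0 + 1 ≤ N + 4 by omega), pow_zero X]
  have hL2 : (L : ℝ) ≤ X ^ (N + 5) := by
    have := Nat.ceil_lt_add_one (show 0 ≤ X ^ (N + 4) by positivity)
    linarith [hp4 (N + 4), one_le_pow₀ (n := N + 4) hX1]
  have hLn : 2 ≤ L := by exact_mod_cast (show (2 : ℝ) ≤ L by linarith)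
  set Ψ : E n → ℝ := fun y => (W y / S) ^ L with hΨ
  have hq : ∀ x, 0 < W x / S ∧ W x / S ≤ 1 := fun x =>
    ⟨div_pos (hW0 x) hS0, (div_le_one hS0).2 (hS x)⟩
  have hΨ1 : ∀ x, Ψ x ≤ 1 := fun x => pow_le_one₀ (hq x).1.le (hq x).2
  have hΨs : ContDiff ℝ ∞ Ψ := (hW.div_const S).pow L
  have hG := hd.riemb
  have hU : ∀ x, ContDiffAt ℝ ∞ (fun y => σ y • grad (gb g φ f) W y) x := fun x =>
    hσ.contDiffAt.smul (contDiffAt_grad hG (mem_univ x) hW.contDiffAt (by simp) le_rfl)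
  have hin : ∀ x, 1 / 4 ≤ Ψ x → ‖x‖ < ρ := fun x hx => by
    by_contra h
    have h1 : W x / S ≤ 1 / 4 := by rw [div_le_iff₀ hS0]; linarith [hfar x (not_lt.1 h)]
    have h2 : Ψ x ≤ (W x / S) ^ 2 := pow_le_pow_of_le_one (hq x).1.le (hq x).2 hLn
    nlinarith [(hq x).1]
  have key := hDG (X ^ (3 * N + 15)) (by linarith [hp4 0, hp (show 0 + 1 ≤ 3 * N + 15 by omega), pow_zero X])
    Ψ (gm g φ f) (fun y => volDensity (gb g φ f) y • ((L * Ψ y) • (σ y • grad (gb g φ f) W y)))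
    (hΨs.of_le (by simp))
    (ContDiff.of_le (n := ∞) (contDiff_iff_contDiffAt.2 fun x =>
      (contDiffAt_sqrt_det hG (mem_univ x)).smul
        ((contDiffAt_const.mul hΨs.contDiffAt).smul (hU x))) (by simp))
    (continuous_iff_continuousAt.2 fun x => (hd.c_gm (mem_univ x)).continuousAt) hΨ1
    ⟨x0, by simp [hΨ, ← hSd, hS0.ne']⟩
    ((Metric.isBounded_ball (x := (0 : E n)) (r := ρ)).subset fun x hx => by
      simpa using hin x hx) fun x hx => ?_
  · refine key.trans (measureReal_mono (fun x hx => ?_) ?_)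
    · have h2 : Ψ x ≤ (W x / S) ^ 1 := pow_le_pow_of_le_one (hq x).1.le (hq x).2 (by omega)
      have h3 : 1 / 4 < W x / S := by rw [← pow_one (W x / S)]; exact lt_of_lt_of_le hx h2
      rw [lt_div_iff₀ hS0] at h3
      change S / 4 < W x
      linarith
    · refine ne_top_of_le_ne_top (measure_ball_lt_top (x := (0 : E n)) (r := ρ)).ne
        (measure_mono fun x hx => ?_)
      by_contra h
      exact absurd (hfar x (by simpa using h)) (not_le.2 hx)
  have hx' := mem_univ x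
  have hγ := hd.one_le_gm hx'
  have hD := (hasFDerivAt_pow hW (hW0 x) S L).fderiv
  have hΓ := gam_self_nonneg hG hx' W
  have hWx := hW0 x
  have hLΨ : 1 ≤ L * Ψ x := by nlinarith
  have hLΨ' : L * Ψ x ≤ X ^ (N + 5) := by nlinarith [hΨ1 x]
  have hσ0 : 0 < σ x := (pos_iff_pos_of_mul_pos (lt_of_lt_of_le (by positivity) (hs x).1)).2 hWx
  refine ⟨by linarith, ?_, ?_⟩
  · have h1 := norm_sq_le_gam hd.riem hx' hX0.le (g_hi x) W
    have h2 := mul_le_mul_of_nonneg_left (gam_le_gb hd hx' W) hX0.le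
    rw [hD, norm_smul, mul_pow, Real.norm_eq_abs, sq_abs]
    simp only [map_smul, smul_apply, smul_eq_mul]
    rw [← gam_eq_fderiv_grad, hd.volDensity_gb hx']
    change (L * Ψ x / W x) ^ 2 * _ ≤ _ * _ * (_ * (L * Ψ x * (σ x * (L * Ψ x / W x * _))))
    set k := L * Ψ x / W x with hk
    have e : L * Ψ x = k * W x := by rw [hk]; field_simp
    rw [e]
    have h3 : X ≤ X ^ (3 * N + 15) * (volDensity g x * (σ x * W x)) := by
      have a1 : X⁻¹ * (X⁻¹ ^ 4 / 2) ≤ volDensity g x * (σ x * W x) :=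
        mul_le_mul (vol_lo x) (hs x).1 (by positivity) ((inv_pos.2 hX0).le.trans (vol_lo x))
      have a2 : 4 * X ^ 6 ≤ X ^ (3 * N + 15) := (hp4 6).trans (hp (by omega))
      refine le_trans ?_ (mul_le_mul a2 a1 (by positivity) (by positivity))
      have : 4 * X ^ 6 * (X⁻¹ * (X⁻¹ ^ 4 / 2)) = 2 * X := by field_simp; norm_num
      linarith
    have h4 := mul_le_mul_of_nonneg_right h3
      (show 0 ≤ gm g φ f x ^ 2 * gam (gb g φ f) W W x by positivity)
    have h5 := mul_le_mul_of_nonneg_left ((h1.trans h2).trans h4) (_root_.sq_nonneg k)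
    exact h5.trans (le_of_eq (by ring))
  · have dU := (hU x).differentiableAt (by simp)
    have dΨ : DifferentiableAt ℝ Ψ x := hΨs.differentiable (by simp) x
    rw [divE_vol hG (fun y => (L * Ψ y) • (σ y • grad (gb g φ f) W y)),
      divg_smul hG hx' (dΨ.const_mul _) dU, fderiv_const_mul dΨ, hD, hd.volDensity_gb hx']
    simp only [map_smul, smul_apply, smul_eq_mul]
    rw [← gam_eq_fderiv_grad]
    have h1 : X ^ N * σ x ^ 2 ≤ L * (σ x / W x) := by
      have a1 : X ^ N * (σ x * W x) ≤ L := by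
        have := mul_le_mul_of_nonneg_left (hs x).2 (show 0 ≤ X ^ N by positivity)
        have e : X ^ N * (X ^ 4 / 2) = X ^ (N + 4) / 2 := by ring
        linarith [show 0 ≤ X ^ (N + 4) by positivity]
      rw [← mul_div_assoc, le_div_iff₀ hWx]
      nlinarith [mul_le_mul_of_nonneg_right a1 hσ0.le]
    have h2 := mul_le_mul_of_nonneg_right h1 hΓ
    have h3 := arith (C := 2 * X ^ 2 + X ^ N) (m := volDensity g x * (L * Ψ x))
      (Λ := X * X ^ (N + 5)) (τ := X⁻¹ ^ 3)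
      (D := divg (gb g φ f) (fun y => σ y • grad (gb g φ f) W y) x
        + L * (σ x / W x) * gam (gb g φ f) W W x) hγ (gm_le hd x) (by positivity)
      (pow_le_one₀ (by positivity) (inv_le_one_of_one_le₀ hX1)) (by positivity) hX0
      ((vol_lo x).trans (le_mul_of_one_le_right ((inv_pos.2 hX0).le.trans (vol_lo x)) hLΨ))
      (mul_le_mul (vol_hi x) hLΨ' (by linarith) hX0.le) (by linarith [hdiv x])
    have h4 : X * X ^ (N + 5) * ((2 * X ^ 2 + X ^ N + 2) ^ 2 / X⁻¹ ^ 3) ≤ X ^ (3 * N + 15) := by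
      have a1 : 2 * X ^ 2 + X ^ N + 2 ≤ X ^ (N + 3) := by
        linarith [hp4 (N + 2), hp (show 2 ≤ N + 2 by omega), hp (show N ≤ N + 2 by omega), hp4 0,
          hp (show 0 + 1 ≤ N + 2 by omega), pow_zero X, hp (show 1 ≤ 2 by omega), pow_one X]
      have a2 := pow_le_pow_left₀ (by positivity) a1 2
      calc _ = X * X ^ (N + 5) * X ^ 3 * (2 * X ^ 2 + X ^ N + 2) ^ 2 := by field_simp
        _ ≤ X * X ^ (N + 5) * X ^ 3 * (X ^ (N + 3)) ^ 2 :=
          mul_le_mul_of_nonneg_left a2 (by positivity)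
        _ = _ := by ring
    have h5 : gm g φ f x / X ^ (3 * N + 15) ≤ gm g φ f x / X :=
      div_le_div_of_nonneg_left (by linarith) hX0 (by linarith [hp (show 1 ≤ 3 * N + 15 by omega), pow_one X])
    refine le_trans (by linarith) (h3.trans (le_of_eq ?_))
    simp only [hΨ]
    ring

end Crest.Agent.N346.Bd.S8

end
end

-- ▼ part N346/Bd/S8
section

/-! Row 346, S8 (helper73): `s8 : WStmt → S8Stmt`. -/

set_option autoImplicit false

open MeasureTheory Filter Set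
open scoped ContDiff Topology
open Crest.GeometryTopology.CoordMetric Crest.MathPhysics.ExteriorData
open Crest.Agent.R202.Tens Crest.Agent.R247.Bo84 Crest.Agent.N346.Id Crest.Agent.N346.P1

noncomputable section

namespace Crest.Agent.N346.Bd

namespace S8

variable {n : ℕ} {S : Setup n} {P T0 R e M z3 : ℝ} {bp an f z : E n → ℝ}

theorem one_add_rpow_le (x : E n) {a : ℝ} (ha : 0 ≤ a) : (1 + ‖x‖) ^ (-a) ≤ 1 :=
  Real.rpow_le_one_of_one_le_of_nonpos (by linarith [norm_nonneg x]) (by linarith)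

theorem rhs_ge (hS : S.OK) (hG : Geo S P T0 R bp) (h : Sl S e M z3 an f z) (hz : ZLo S z)
    (hf : FB e T0 f) (he : 0 < e) (he1 : e ≤ 1) (x : E n) :
    -(P ^ 2 + 5 * P + 2) ≤ rhs S e M z3 an f z x := by
  have hP := hG.P_ge
  have a1 : (e ^ 3 * f x) ^ 2 ≤ P ^ 2 := by
    rw [← sq_abs]; exact pow_le_pow_left₀ (abs_nonneg _) ((hf x).trans hG.T0_le) 2
  have a2 : e ^ 3 * pp' S e f z x ≤ 1 :=
    mul_le_one₀ (pow_le_one₀ he.le he1) (h.jd.pp_nonneg (mem_univ x)) (h.jd.pp_lt_one (mem_univ x)).le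
  have a0 := one_add_rpow_le x (Nat.cast_nonneg (α := ℝ) n)
  have a3 : S.mw x ≤ P := (hG.mw_hi x).trans (mul_le_of_le_one_right (by linarith) a0)
  have a4 : eSq (gB S e f z) (S.coef 0).EE x ≤ P := (eSq_gb_le h.jd (mem_univ x) _).trans (hG.E_le x)
  have a5 : (S.par e 0 0).sz (z x) * S.cw x ≤ P :=
    (mul_le_of_le_one_left (hG.cw_nonneg x) (sz_mem _ _).2).trans
      ((hG.cw_hi x).trans (mul_le_of_le_one_right (by linarith) a0))
  have a6 : 0 ≤ (1 - (S.par e 0 0).sz (z x)) * ((e ^ 6)⁻¹ *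
      (S.par e 0 0).dd ((S.coef 0).b1 x) ((S.coef 0).b2 x) (e ^ 3 * f x)) :=
    mul_nonneg (sub_nonneg.2 (sz_mem _ _).2) (mul_nonneg (by positivity) (dd_mem' S e x _).1)
  have hθ := Setup.OK.θ_le hS
  have a7 : -1 ≤ an x * z x := by
    nlinarith [(h.an_mem x).1, (h.an_mem x).2, hz x,
      mul_nonneg (h.an_mem x).1 (show 0 ≤ z x + 1 by linarith [hz x])]
  have a8 := h.vt_nonneg (x := x) (by linarith [hz x])
  unfold rhs
  linarith

theorem ed_ge (hS : S.OK) (h : Sl S e M z3 an f z) (he : 0 < e) (he1 : e ≤ 1) (x : E n) {m : ℝ}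
    (hm0 : 0 ≤ m) (hm1 : m ≤ 1) (hm : m ≤ S.mw x) :
    volDensity S.g x * (e ^ 3 * m) * (uu z x * gm' S e f z x ^ 2) ≤ ed S e f z x := by
  have hx := mem_univ x
  have hφ := ph_mem S (pow_le_one₀ he.le he1) f z x
  have hsym : SymT S.K univ := ⟨fun i j => (hS.good.K_smooth i j).contDiffOn, fun x _ => hS.good.K_symm x⟩
  have a1 := normSqK_nonneg h.jd.riemb hx ((h.jd.symT_ZZ hsym).symm x hx)
  have a2 := bil_self_nonneg h.jd.riemb hx (qv S.g (ph S e f z) f S.K x)
  have a3 := gam_self_nonneg h.jd.riemb hx z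
  have a4 := gm_le h.jd x
  have a5 := h.jd.one_le_gm hx
  have a6 := h.jd.pp_nonneg hx
  have a7 : e ^ 3 ≤ e ^ 2 := pow_le_pow_of_le_one he.le he1 (by norm_num)
  have b1 : e ^ 3 * m ≤ ph S e f z x * (normSqK (gB S e f z) (ZZ S.g (ph S e f z) f S.K) x
      + bil (gB S e f z x) (qv S.g (ph S e f z) f S.K x) (qv S.g (ph S e f z) f S.K x)
      + gam (gB S e f z) z z x + S.mw x) :=
    mul_le_mul (a7.trans hφ.1) (by linarith) hm0 ((by positivity : (0 : ℝ) ≤ e ^ 2).trans hφ.1)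
  have b2 : e ^ 3 * m * gm' S e f z x ≤ e ^ 3 * m + e ^ 3 * gm' S e f z x * pp' S e f z x := by
    have c1 := mul_le_mul_of_nonneg_left a4 (show 0 ≤ e ^ 3 * m by positivity)
    have c2 := mul_le_mul_of_nonneg_right hm1
      (show 0 ≤ e ^ 3 * (gm' S e f z x * pp' S e f z x) by positivity)
    linarith
  have hv : 0 ≤ volDensity S.g x := Real.sqrt_nonneg _
  have hu : 0 ≤ uu z x := (Real.exp_pos _).le
  rw [ed, h.jd.volDensity_gb hx]
  calc _ = gm' S e f z x * volDensity S.g x * (uu z x * (e ^ 3 * m * gm' S e f z x)) := by ring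
    _ ≤ _ := mul_le_mul_of_nonneg_left (mul_le_mul_of_nonneg_left (by linarith) hu) (by positivity)

theorem psi_le (hn : 3 ≤ n) (hS : S.OK) (h : Sl S e M z3 an f z) (hz : ZLo S z) (x : E n) :
    psi S e f z x ≤ 9 * (uu z x * gm' S e f z x ^ 2) ^ 4 := by
  have a5 := h.jd.one_le_gm (mem_univ x)
  have h1 := al_ge hn
  have h2 := al_le hn
  have h3 : -1 ≤ z x := by linarith [hz x, Setup.OK.θ_le hS]
  have a1 : Real.exp (2 * z x) ≤ 9 * uu z x ^ 4 := by
    have b1 : Real.exp 2 ≤ 9 := by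
      have := Real.exp_one_lt_d9
      rw [show (2 : ℝ) = 1 + 1 by norm_num, Real.exp_add]
      nlinarith [Real.exp_pos 1]
    rw [uu, ← Real.exp_nat_mul]
    refine le_trans ?_ (mul_le_mul_of_nonneg_right b1 (Real.exp_pos _).le)
    rw [← Real.exp_add]
    refine Real.exp_le_exp.2 ?_
    push_cast
    nlinarith [mul_nonneg (show 0 ≤ 4 * al n - 2 by linarith) (show 0 ≤ z x + 1 by linarith)]
  have a2 : gm' S e f z x ≤ (gm' S e f z x ^ 2) ^ 4 := by
    rw [← pow_mul]; exact le_self_pow₀ a5 (by norm_num)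
  rw [psi, mul_pow]
  calc _ ≤ (gm' S e f z x ^ 2) ^ 4 * (9 * uu z x ^ 4) :=
        mul_le_mul a2 a1 (Real.exp_pos _).le (by positivity)
    _ = _ := by ring

theorem far_le (hn : 3 ≤ n) (he : 0 < e) (he1 : e ≤ 1) {r : ℝ} (hr : e⁻¹ ^ 9 ≤ r) :
    (e⁻¹ ^ 5 / r) ^ a0 n ≤ e ^ 3 := by
  have h0 : 0 < e⁻¹ ^ 9 := by positivity
  have h1 : e⁻¹ ^ 5 / r ≤ e ^ 4 := by
    refine (div_le_div_of_nonneg_left (by positivity) h0 hr).trans (le_of_eq ?_)
    field_simp
  have h2 := a0_ge hn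
  calc _ ≤ (e ^ 4) ^ a0 n := Real.rpow_le_rpow (by have := h0.trans_le hr; positivity) h1 (by linarith)
    _ ≤ (e ^ 4) ^ (3 / 4 : ℝ) :=
      Real.rpow_le_rpow_of_exponent_ge (by positivity) (pow_le_one₀ he.le he1) h2
    _ = e ^ 3 := by
      rw [← Real.rpow_natCast, ← Real.rpow_mul he.le, ← Real.rpow_natCast]; norm_num

end S8

open S8

theorem s8 (hW : WStmt) : S8Stmt := by
  intro hDG n hn S hS P T0 R bp hG
  obtain ⟨N', hDG⟩ := hDG n (by omega)
  have ht1 : 0 < S.t1 := by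
    have h1 : 0 < S.t0 := hS.par_ok.t0_pos
    have h2 : 4 * S.t0 ≤ S.t1 := hS.par_ok.t01
    linarith
  obtain ⟨N, e1, he1, hW⟩ := hW n hn S.θ S.t1 P (Setup.OK.θ_pos hS) ht1
  have hP := hG.P_ge
  set j := 20 * n + 5 + (3 * N + 15) * N' + 5 * n + 1 with hj
  refine ⟨4 * j + 4, min e1 (min P⁻¹ 18⁻¹), by positivity, ?_⟩
  intro e he hle M z3 an f z h hF hI hE
  have hPX : P ≤ e⁻¹ := by
    rw [le_inv_comm₀ (by linarith) he]; exact hle.trans ((min_le_right _ _).trans (min_le_left _ _))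
  have hX : 18 ≤ e⁻¹ := by
    rw [le_inv_comm₀ (by norm_num) he]; exact hle.trans ((min_le_right _ _).trans (min_le_right _ _))
  have he' : e ≤ 1 := by
    have := hle.trans ((min_le_right _ _).trans (min_le_right _ _))
    linarith [show (18 : ℝ)⁻¹ ≤ 1 by norm_num]
  obtain ⟨-, hWs, hσs, hW⟩ := hW (S.par e 0 0) rfl rfl he (hle.trans (min_le_left _ _)) (e ^ 2)
    le_rfl (pow_le_one₀ he.le he') S.g S.K _ _ _ f z hG.toBG h.f_smooth h.z_smooth
    (by rw [← ph_eq_phd]; exact h.J) (fun x => (hF.fb x).trans hG.T0_le)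
  set W := WW (S.par e 0 0) (e ^ 2) S.g (S.coef 0).a1 (S.coef 0).a2 f z with hWd
  set σ := sg (S.par e 0 0) (e ^ 2) S.g (S.coef 0).a1 (S.coef 0).a2 f z with hσd
  have hσ : ∀ x, σ x = Real.exp (-(4 * z x)) / (2 * gm' S e f z x ^ 2 * ph S e f z x ^ 2) :=
    fun x => by rw [hσd, sg, ← ph_eq_phd]
  simp only [← ph_eq_phd] at hW
  have hW1 : ∀ x, e ^ 4 * psi S e f z x ^ 2 ≤ W x := fun x => (hW x).2.1
  have hW2 : ∀ x, W x ≤ psi S e f z x ^ 2 := fun x => (hW x).2.2.1
  have hψ : ∀ x, 0 < psi S e f z x := fun x => mul_pos (h.jd.gm_pos (mem_univ x)) (Real.exp_pos _)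
  have hW0 : ∀ x, 0 < W x := fun x => lt_of_lt_of_le (by have := hψ x; positivity) (hW1 x)
  generalize hXe : e⁻¹ = X at hPX hX hE ⊢
  have heX : e = X⁻¹ := by rw [← hXe, inv_inv]
  have hX1 : 1 ≤ X := by linarith
  have hX0 : 0 < X := by linarith
  have hp : ∀ {a b : ℕ}, a ≤ b → X ^ a ≤ X ^ b := fun h => pow_le_pow_right₀ hX1 h
  have hW3 : ∀ x, psi S e f z x ^ 2 ≤ X ^ 4 * W x := fun x => by
    have := mul_le_mul_of_nonneg_left (hW1 x) (show 0 ≤ X ^ 4 by positivity)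
    rwa [← mul_assoc, ← mul_pow, heX, mul_inv_cancel₀ hX0.ne', one_pow, one_mul, ← heX] at this
  obtain ⟨x0, -, hx0⟩ := (isCompact_closedBall (0 : E n) (X ^ 9)).exists_isMaxOn
    ⟨0, Metric.mem_closedBall_self (by positivity)⟩ hWs.continuous.continuousOn
  have hin : ∀ x, ‖x‖ ≤ X ^ 9 → W x ≤ W x0 := fun x hx => hx0 (by simpa using hx)
  have hpf := hF.pfar
  rw [PFar, hXe] at hpf
  have hSS : W x0 ≤ 324 * (X ^ j) ^ 8 := by
    by_contra hlt
    rw [not_le] at hlt
    have hT : 1 ≤ (X ^ j) ^ 8 := one_le_pow₀ (one_le_pow₀ hX1)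
    have hs4 : 4 ≤ √(W x0) := Real.le_sqrt_of_sq_le (by linarith)
    have hsq := Real.sq_sqrt (hW0 x0).le
    have hfar : ∀ x, X ^ 9 ≤ ‖x‖ → W x ≤ W x0 / 4 := fun x hx => by
      have h1 := hpf (X ^ 2 * √(W x0)) (one_le_mul_of_one_le_of_one_le (one_le_pow₀ hX1) (by linarith))
        (fun y hy => by
          have b1 := (hW3 y).trans (mul_le_mul_of_nonneg_left
            (hin y (hy.le.trans (hp (by norm_num)))) (by positivity))
          have b2 : psi S e f z y ≤ X ^ 2 * √(W x0) :=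
            le_of_sq_le_sq (by rw [mul_pow, hsq, ← pow_mul]; exact b1) (by positivity)
          linarith) x ((hp (by norm_num)).trans hx)
      have h2 := far_le hn he he' (r := ‖x‖) (by rwa [hXe])
      rw [hXe] at h2
      have h3 := mul_le_mul_of_nonneg_left h2 (show 0 ≤ X ^ 2 * √(W x0) by positivity)
      have h4 : X ^ 2 * √(W x0) * e ^ 3 ≤ √(W x0) / 4 := by
        have : X ^ 2 * √(W x0) * e ^ 3 = √(W x0) / X := by rw [heX]; field_simp
        rw [this]
        exact div_le_div_of_nonneg_left (by positivity) (by norm_num) (by linarith)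
      have h5 : psi S e f z x ≤ √(W x0) / 2 := by linarith
      have h6 := pow_le_pow_left₀ (hψ x).le h5 2
      rw [div_pow, hsq] at h6
      linarith [hW2 x]
    have hall : ∀ x, W x ≤ W x0 := fun x => by
      rcases le_total ‖x‖ (X ^ 9) with hx | hx
      · exact hin x hx
      · linarith [hfar x hx, hW0 x0]
    have key := dg_apply (N := N) hDG h.jd (show 4 ≤ X by linarith)
      (fun x Y => (hG.g_hi x Y).trans (mul_le_mul_of_nonneg_right hPX (by positivity)))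
      (fun x => (inv_anti₀ (by linarith) hPX).trans (hG.vol_lo x))
      (fun x => (hG.vol_hi x).trans hPX) hWs hσs hW0 (fun x => ?_) (fun x => ?_) hall hfar
    · have hm : ∀ x, ‖x‖ ≤ X ^ 9 → (X ^ (20 * n + 1))⁻¹ ≤ S.mw x := fun x hx => by
        refine le_trans ?_ (hG.mw_lo x)
        have b1 : 1 + ‖x‖ ≤ X ^ 10 := by
          nlinarith [one_le_pow₀ (n := 9) hX1, pow_succ X 9]
        have b2 : (X ^ 10) ^ (-(2 * n : ℝ)) ≤ (1 + ‖x‖) ^ (-(2 * n : ℝ)) :=
          Real.rpow_le_rpow_of_nonpos (by positivity) b1 (by simp)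
        have b3 : (X ^ 10) ^ (-(2 * n : ℝ)) = (X ^ (20 * n))⁻¹ := by
          rw [Real.rpow_neg (by positivity), show (2 * n : ℝ) = ((2 * n : ℕ) : ℝ) by push_cast; ring,
            Real.rpow_natCast, ← pow_mul]
          congr 2
          ring
        rw [pow_succ', mul_inv]
        exact mul_le_mul (inv_anti₀ (by linarith) hPX) (b3 ▸ b2) (by positivity) (by positivity)
      have hc := mul_meas_ge_le_integral_of_nonneg (μ := volume) (Eventually.of_forall fun x => by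
        simpa using ed_ge hS h he he' x le_rfl zero_le_one (Setup.OK.mw_pos hS x).le) hI
        ((X ^ (20 * n + 5))⁻¹ * X ^ j)
      have hsub : {x | W x0 / 4 < W x} ⊆ {x | (X ^ (20 * n + 5))⁻¹ * X ^ j ≤ ed S e f z x} := by
        intro x hx
        have hx' : W x0 / 4 < W x := hx
        have b0 : ‖x‖ ≤ X ^ 9 := by
          by_contra hc
          linarith [hfar x (not_le.1 hc).le]
        have b1 := ed_ge hS h he he' x (by positivity) (inv_le_one_of_one_le₀ (one_le_pow₀ hX1))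
          (hm x b0)
        have b2 : X ^ j ≤ uu z x * gm' S e f z x ^ 2 := by
          have c0 : 0 ≤ uu z x * gm' S e f z x ^ 2 :=
            mul_nonneg (Real.exp_pos _).le (_root_.sq_nonneg _)
          have c1 := pow_le_pow_left₀ (hψ x).le (psi_le hn hS h hF.zlo x) 2
          refine le_of_pow_le_pow_left₀ (n := 8) (by norm_num) c0 ?_
          have c2 := hW2 x
          rw [mul_pow, ← pow_mul, show 4 * 2 = 8 from rfl] at c1
          generalize (uu z x * gm' S e f z x ^ 2) ^ 8 = A at c1 ⊢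
          generalize (X ^ j) ^ 8 = B at hlt ⊢
          linarith
        have b3 : (X ^ (20 * n + 5))⁻¹ ≤ volDensity S.g x * (e ^ 3 * (X ^ (20 * n + 1))⁻¹) := by
          refine le_trans (le_of_eq ?_) (mul_le_mul_of_nonneg_right
            ((inv_anti₀ (by linarith) hPX).trans (hG.vol_lo x)) (by positivity))
          rw [heX]
          field_simp
          ring
        exact (mul_le_mul b3 b2 (by positivity) ((by positivity : (0 : ℝ) ≤ _).trans b3)).trans b1
      have hfin : volume {x | (X ^ (20 * n + 5))⁻¹ * X ^ j ≤ ed S e f z x} ≠ ⊤ :=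
        ne_top_of_le_ne_top (hI.measure_norm_ge_lt_top
          (show 0 < (X ^ (20 * n + 5))⁻¹ * X ^ j by positivity)).ne
          (measure_mono fun x hx => le_trans (b := ed S e f z x) hx (Real.le_norm_self _))
      have b4 := mul_le_mul_of_nonneg_left (key.trans (measureReal_mono hsub hfin))
        (show 0 ≤ (X ^ (20 * n + 5))⁻¹ * X ^ j by positivity)
      have b5 : (X ^ (20 * n + 5))⁻¹ * X ^ j * ((X ^ (3 * N + 15)) ^ N')⁻¹ = X * X ^ (5 * n) := by
        rw [hj, ← pow_mul]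
        field_simp
        ring
      have b6 : 0 < X ^ (5 * n) := by positivity
      nlinarith
    · have hφ := (hW x).1
      have hγ := h.jd.gm_pos (mem_univ x)
      have hφ0 : 0 < ph S e f z x := lt_of_lt_of_le (by positivity) hφ.1
      have b1 : σ x * psi S e f z x ^ 2 = (2 * ph S e f z x ^ 2)⁻¹ := by
        rw [hσ, psi, mul_pow, ← Real.exp_nat_mul, Real.exp_neg]
        have : ((2 : ℕ) : ℝ) * (2 * z x) = 4 * z x := by push_cast; ring
        rw [this]
        field_simp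
      have hσ0 : 0 ≤ σ x := by rw [hσ]; positivity
      have b2 := mul_le_mul_of_nonneg_left (hW1 x) hσ0
      have b3 := mul_le_mul_of_nonneg_left (hW2 x) hσ0
      rw [mul_left_comm, b1] at b2
      rw [b1] at b3
      have b4 : (2 : ℝ)⁻¹ ≤ (2 * ph S e f z x ^ 2)⁻¹ :=
        inv_anti₀ (by positivity) (by linarith [pow_le_one₀ (n := 2) hφ0.le hφ.2])
      have b5 : (2 * ph S e f z x ^ 2)⁻¹ ≤ X ^ 4 / 2 := by
        have c1 : (e ^ 2) ^ 2 ≤ ph S e f z x ^ 2 := pow_le_pow_left₀ (by positivity) hφ.1 2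
        refine (inv_anti₀ (by positivity) (mul_le_mul_of_nonneg_left c1 zero_le_two)).trans
          (le_of_eq ?_)
        rw [heX]
        field_simp
      refine ⟨?_, b3.trans b5⟩
      rw [← heX]
      linarith [mul_le_mul_of_nonneg_left b4 (show 0 ≤ e ^ 4 by positivity)]
    · have b1 := (hW x).2.2.2
      have b2 := rhs_ge hS hG h hF.zlo hF.fb he he' x
      have b3 := h.U x
      have b4 : P ^ 2 + 5 * P + 2 ≤ 2 * X ^ 2 := by nlinarith
      change e ^ 3 * _ * _ + _ - e⁻¹ ^ N * _ ≤ _ at b1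
      rw [hXe] at b1
      rw [← heX]
      linarith
  have hin' : ∀ x, ‖x‖ ≤ X ^ 9 → psi S e f z x ≤ X ^ (4 * j + 3) := fun x hx => by
    refine le_of_sq_le_sq ((hW3 x).trans ?_) (by positivity)
    have b1 : W x ≤ X ^ 2 * (X ^ j) ^ 8 :=
      ((hin x hx).trans hSS).trans (mul_le_mul_of_nonneg_right (by nlinarith) (by positivity))
    exact (mul_le_mul_of_nonneg_left b1 (by positivity)).trans (le_of_eq (by ring))
  intro x
  have h1 : 1 ≤ X ^ (4 * j + 3) := one_le_pow₀ hX1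
  have h2 : 2 * X ^ (4 * j + 3) ≤ X ^ (4 * j + 4) := by
    rw [pow_succ' X (4 * j + 3)]; exact mul_le_mul_of_nonneg_right (by linarith) (by positivity)
  rcases le_total ‖x‖ (X ^ 9) with hx | hx
  · linarith [hin' x hx]
  · have h3 := hpf _ h1 (fun y hy => by linarith [hin' y (hy.le.trans (hp (by norm_num)))]) x
      ((hp (by norm_num)).trans hx)
    have h4 := far_le hn he he' (r := ‖x‖) (by rwa [hXe])
    rw [hXe] at h4
    have h5 := mul_le_mul_of_nonneg_left (h4.trans (pow_le_one₀ he.le he'))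
      (show 0 ≤ X ^ (4 * j + 3) by positivity)
    linarith

end Crest.Agent.N346.Bd

end
end

-- ▼ part N346/Bd/Final
section

/-!
Row 346, Part 1 (helper71): `P1.APStmt`, `P1.EstStmt`, `P1.EnStmt`.
-/

set_option autoImplicit false

namespace Crest.Agent.N346.Bd

theorem ap' : P1.APStmt := ap bg wineq

theorem est_en : P1.EstStmt ∧ P1.EnStmt :=
  top (geo P1.unif bg far) s1 s2 s3 s4 s5 s6 s7a s7b s7c s7d dg (s8 wineq)

theorem est : P1.EstStmt := est_en.1

theorem en : P1.EnStmt := est_en.2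

end Crest.Agent.N346.Bd
end

-- ▼ part N346/All

/-! Row 346 (helper11): Part 1 with all leaves plugged in. -/

set_option autoImplicit false

namespace Crest.Agent.N346

theorem p1 : P1Stmt :=
  P1.p1_of P1.setup P1.unif
    (Br.ex Br.cong Bd.ap' (Br.reg An.reg Br.str) (Br.tor An.ex2' Br.cong Br.cont Br.sch))
    Bd.est (Br.lim Br.cong) Bd.en P1.out

end Crest.Agent.N346
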